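import Vale.Agent.P347.Zero.LevelsFinal
import Vale.Agent.P347.Zero.Step
import Vale.Agent.P347.Zero.MidProg

/-!
The dimension exponent of sampling well-conditioned log-concave laws with a first-order oracle
is zero.
-/

open Filter Vale.Agent.P347

namespace Vale.Agent.Results.P347.ZeroExponent

/-- Every positive power of the dimension is a sufficient number of queries in all large
dimensions, and so the dimension exponent is zero. -/
theorem result :
    (∀ γ : ℝ, 0 < γ → ∀ᶠ d : ℕ in atTop, ∃ q : ℕ, (q : ℝ) ≤ (d : ℝ) ^ γ ∧ Samples d q) ∧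
      gammaStar = 0 :=
  ⟨fun _ hγ => Zero.samples_of_rules Zero.stepRule Zero.midRule hγ,
    Zero.gammaStar_eq_zero_of_rules Zero.stepRule Zero.midRule⟩

end Vale.Agent.Results.P347.ZeroExponent
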